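import Vale.Agent.P318.Final

/-! A lower bound of order `(log n) ^ (1/4) / (log log n) ^ 3` for the integrality gap of the
Goemans-Linial relaxation of uniform sparsest cut. -/

theorem Vale.Agent.Results.P318.A_quarter.result :
    ∃ κ : ℝ, 0 < κ ∧ ∃ n₀ : ℕ, ∀ n ≥ n₀, ∃ c : Fin n → Fin n → ℝ,
      Vale.Agent.P318.IsCapacity c ∧ 0 < Vale.Agent.P318.GLv c ∧
        κ * Real.log n ^ (1 / 4 : ℝ) / Real.log (Real.log n) ^ 3 ≤
          Vale.Agent.P318.Phi c / Vale.Agent.P318.GLv c :=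
  Vale.Agent.P318.main
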